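import Vale.Agent.P273SZ.Defs
import Vale.Agent.P273SA.Defs
import Vale.Agent.P273SW.Defs
import Vale.Agent.P273.H728.StrSum

/-!
# P273S: the statements of the rows which the top of the proof needs
-/

noncomputable section

namespace Vale.Agent.P273SZ

open Set Filter Topology MeasureTheory Vale.Agent.P273
open H183 (Fam)
open H837 (Coord GIso pt)
open H93 (thE Gr)
open H95 (L Region Ext)
open H728 (Cell D0 sm rg Tc Sc iot coordE)
open H888 (Real Far)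
open P273SA (Cm CAtl Full SmC bas)
open P273SW (Amb WW eR NatMap)

universe u

/-- The point of the ambient space of the point `ζ` of the cell `c` of the graph `thE e p q σ`. -/
def eC {p q : ℕ} (hp : p ≤ q) (hq : q ≤ 6) (σ : Bool → Equiv.Perm (Fin 7)) (e : Bool → Bool)
    (c : Cell) (ζ : Fin 8 → ℂ) : Amb :=
  eR (rg (Tc hp hq σ e c)) (Sc σ c) (H732.scl _ (iot hp hq σ e c ζ))

/-- The value of `Φ` on the regions (the conclusion of `WPHI`). -/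
def PhiReg {Z : Type u} [TopologicalSpace Z] (cls : ∀ m, Fam L m → (Fin m → ℂ) → Z)
    (Φ : C(WW, Z)) : Prop :=
  ∀ (R : Region) (S : L → Bool) (C : Fam L 17), Far R S →
    Real (H680.k17 R) R.psi S (R.sht S) C → ∀ p ∈ R.dom S, (H680.k17 R).symm p ∈ C.B →
    ∀ h : eR R S p ∈ WW, Φ ⟨eR R S p, h⟩ = cls 17 C ((H680.k17 R).symm p)

/-- The map `ξ` is locally given by stable families. -/
def Lifts {Z : Type u} {L : Type} (cls : ∀ m, Fam L m → (Fin m → ℂ) → Z) {X : Type}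
    [TopologicalSpace X] (ξ : X → Z) : Prop :=
  ∀ x, ∃ (m : ℕ) (C : Fam L m) (lam : X → Fin m → ℂ), C.IsStable ∧ ContinuousAt lam x ∧
    lam x ∈ C.B ∧ ∀ᶠ y in 𝓝 x, ξ y = cls m C (lam y)

/-- **WPHI2** (68): the map to the moduli space, with the local lifts. -/
def WPHI2 : Prop := ∀ (Z : Type u) [TopologicalSpace Z] (cls : ∀ m, Fam L m → (Fin m → ℂ) → Z),
  NatMap cls → ∃ Φ : C(WW, Z), PhiReg cls Φ ∧ Lifts cls Φ

/-- **XIC** (89): the value of `Φ` on the open cells is the class of the glued curve. -/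
def XIC : Prop := ∀ (Z : Type u) [TopologicalSpace Z] (cls : ∀ m, Fam L m → (Fin m → ℂ) → Z),
  NatMap cls → ∀ Φ : C(WW, Z), PhiReg cls Φ → ∀ (p q : Fin 7) (hp : p.1 ≤ q.1) (hq : q.1 ≤ 6)
    (σ : Bool → Equiv.Perm (Fin 7)) (e : Bool → Bool) (C : Fam L 8), C.IsStable →
    (coordE e p q hp σ).IsGlued C → ∀ c : Cell, ∀ ζ ∈ D0.Om (sm e) c,
    ∀ h : eC hp hq σ e c ζ ∈ WW, Φ ⟨eC hp hq σ e c ζ, h⟩ = cls 8 C (D0.kap (sm e) c ζ)

/-- **CF** (89): the integral of the pull-back of the form is the sum of the cell integrals. -/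
def CF : Prop := ∀ (ω : Amb → H95.Alt 16 Amb) (X : Ext),
  (∀ R S, Far R S → ∀ p ∈ R.dom S,
    X.H R S p = (ω (eR R S p)).compContinuousLinearMap (fderiv ℝ (eR R S) p)) →
  ∀ (p q : Fin 7) (hp : p.1 ≤ q.1) (hq : q.1 ≤ 6) (σ : Bool → Equiv.Perm (Fin 7))
    (e : Bool → Bool) (f : (Fin 8 → ℂ) → Amb),
    (∀ c : Cell, c.Ok (sm e) → ∀ ζ ∈ D0.Om (sm e) c,
      f (D0.kap (sm e) c ζ) = eC hp hq σ e c ζ) →
    ∫ y in (coordE e p q hp σ).base, ω (f y) (fun a => fderiv ℝ f y (bas 8 a)) =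
      ∑ c : Cell with c.Ok (sm e), ∫ ζ in D0.Om (sm e) c, H728.val X hp hq σ e c ζ

/-- The chart `e₀` is the chart of the open stratum in the coordinates `c`. -/
structure BaseCh {L V E : Type} {h : (E × Bool) ⊕ L → V} {m : ℕ} (c : Coord h m)
    (e₀ : OpenPartialHomeomorph (N h) (Cm m)) : Prop where
  target : e₀.target = c.base
  symm : ∀ b ∈ c.base, (e₀.symm b).1 = cr h fun y => pt b (c.c y)
  dense : Dense e₀.source

/-- **NA** (75): the manifolds `N h` with their atlases `𝒜 h`. -/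
structure NA (𝒜 : ∀ h : Gr, Set (OpenPartialHomeomorph (N h) (Cm 8))) : Prop where
  atl : ∀ (p q : Fin 7), p.1 ≤ q.1 → ∀ (σ : Bool → Equiv.Perm (Fin 7)) (e : Bool → Bool),
    CAtl (𝒜 (thE e p q σ))
  base : ∀ (p q : Fin 7) (hp : p.1 ≤ q.1) (σ : Bool → Equiv.Perm (Fin 7)) (e : Bool → Bool),
    ∃ e₀ ∈ 𝒜 (thE e p q σ), Full (𝒜 (thE e p q σ)) e₀ ∧ BaseCh (coordE e p q hp σ) e₀
  iso : ∀ (h h' : Gr) (i : GIso h h'), ∃ s : N h ≃ₜ N h',
    (∀ (x : N h) (y : Quad h) (y' : Quad h'), (∀ k, y'.1 k = i.Q (y.1 k)) → (s x).1 y' = x.1 y) ∧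
    (∀ e ∈ 𝒜 h, s.symm.toOpenPartialHomeomorph.trans e ∈ 𝒜 h') ∧
    ∀ e ∈ 𝒜 h', s.toOpenPartialHomeomorph.trans e ∈ 𝒜 h

/-- **EHAT** (75): the smooth maps from the manifolds `N h` to the space of the wall. -/
def EHAT (𝒜 : ∀ h : Gr, Set (OpenPartialHomeomorph (N h) (Cm 8))) : Prop :=
  ∀ (p q : Fin 7) (hp : p.1 ≤ q.1) (hq : q.1 ≤ 6) (σ : Bool → Equiv.Perm (Fin 7))
    (e : Bool → Bool), ∃ f : C(N (thE e p q σ), WW),
    SmC (𝒜 (thE e p q σ)) (fun x => (f x : Amb)) ∧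
    ∀ c : Cell, c.Ok (sm e) → ∀ ζ ∈ D0.Om (sm e) c, ∀ x : N (thE e p q σ),
      (x.1 = cr _ fun y => pt (D0.kap (sm e) c ζ) ((coordE e p q hp σ).c y)) →
      (f x : Amb) = eC hp hq σ e c ζ

/-- **NB** (75). -/
def NB : Prop := ∃ 𝒜, NA 𝒜 ∧ EHAT 𝒜

/-- **CELL** (9, proved: `P273SC.cell_rel`). -/
def CELL : Prop := ∀ (X : Ext) (G : Gr → ℝ), H93.Inv G →
  (∀ (p q : ℕ) (hp : p ≤ q) (hq : q ≤ 6) (σ : Bool → Equiv.Perm (Fin 7)) (e : Bool → Bool),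
    G (thE e p q σ) =
      ∑ c : Cell with c.Ok (sm e), ∫ ζ in D0.Om (sm e) c, H728.val X hp hq σ e c ζ) →
  ∑ i : H503.Ix, (H503.xa i : ℝ) * G (H503.xh i) = 0

end Vale.Agent.P273SZ

end
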