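import Vale.Agent.P273.H837.Strata
import Vale.Agent.P273SD.Defs

/-!
The coarse moduli space of stable curves with marked points, the products of the moduli spaces of
stable rational curves attached to a graph with rational vertices, the gluing maps, rational
singular chains, fundamental cycles, and the statement that a combination of strata is zero in
rational singular homology. Everything here is a definition.
-/

noncomputable section

namespace Vale.Agent.P273SZ

open Set Sum Vale.Agent.P273 H183 H837 P273SD

universe u v

variable {L V E Y : Type} {m : ℕ}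

/-- A point of the base of a family of stable curves (with the topology of the disjoint union of
all the bases). -/
abbrev Pt (L : Type) : Type 1 := Σ x : Σ m, {C : Fam L m // C.IsStable}, x.2.1.B

/-- The coarse moduli space of stable curves with marked points in `L` (the disjoint union over
all genera): the isomorphism classes of the fibres of all families, with the quotient topology. -/
abbrev Coarse (L : Type) : Type 1 :=
  Quot fun x y : Pt L => ∃ φ, FIso x.1.2.1 x.2 y.1.2.1 y.2 φ

/-- The isomorphism class of the fibre over `b`. -/
def cls (C : Fam L m) (st : C.IsStable) (b : C.B) : Coarse L := Quot.mk _ ⟨⟨m, C, st⟩, b⟩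

/-- The difference of two points of the projective line, in homogeneous coordinates. -/
def df (a b : OnePoint ℂ) : ℂ := a.elim (b.elim 0 fun _ => 1) fun z => b.elim (-1) fun w => z - w

/-- The quadruples of distinct half-edges (or legs) at one vertex. -/
abbrev Quad (h : Y → V) : Type :=
  {q : Fin 4 → Y // q.Injective ∧ ∀ i, h (q i) = h (q 0)}

/-- All the cross ratios of a configuration `w` of points of the projective line: the value at `q`
is the position of the point `q 3` when the points `q 0`, `q 1`, `q 2` are moved to `0, 1, ∞`. -/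
def cr (h : Y → V) (w : Y → OnePoint ℂ) (q : Quad h) : OnePoint ℂ :=
  (df (w (q.1 3)) (w (q.1 0)) * df (w (q.1 1)) (w (q.1 2)) /
    (df (w (q.1 3)) (w (q.1 2)) * df (w (q.1 1)) (w (q.1 0))) : ℂ)

/-- The product over the vertices `v` of the moduli spaces of stable rational curves with marked
points in `h ⁻¹' {v}`: the closure of the set of the cross ratios of the configurations of points
which are distinct at each vertex. -/
def N (h : Y → V) : Set (Quad h → OnePoint ℂ) :=
  closure (cr h '' {w | ∀ y y', h y = h y' → w y = w y' → y = y'})

/-- Singular simplices with `k` vertices. -/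
abbrev Simp (k : ℕ) (Z : Type u) [TopologicalSpace Z] := C(stdSimplex ℝ (Fin k), Z)

/-- Rational singular chains of simplices with `k` vertices. -/
abbrev Chain (k : ℕ) (Z : Type u) [TopologicalSpace Z] := Simp k Z →₀ ℚ

/-- The inclusion of the `i`-th face of the standard simplex. -/
def face (k : ℕ) (i : Fin (k + 1)) : C(stdSimplex ℝ (Fin k), stdSimplex ℝ (Fin (k + 1))) :=
  ⟨stdSimplex.map i.succAbove, stdSimplex.continuous_map _⟩

/-- The singular boundary. -/
def bd {Z : Type u} [TopologicalSpace Z] (k : ℕ) : Chain (k + 1) Z →ₗ[ℚ] Chain k Z :=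
  Finsupp.linearCombination ℚ fun σ : Simp (k + 1) Z =>
    ∑ i : Fin (k + 1), Finsupp.single (σ.comp (face k i)) ((-1 : ℚ) ^ (i : ℕ))

/-- The image of a chain under a continuous map. -/
def push {Z : Type u} {Z' : Type v} [TopologicalSpace Z] [TopologicalSpace Z'] {k : ℕ}
    (f : C(Z, Z')) : Chain k Z →ₗ[ℚ] Chain k Z' :=
  Finsupp.lmapDomain ℚ ℚ f.comp

variable {h : (E × Bool) ⊕ L → V}

/-- `ξ` is the gluing map of the graph `h`: near every point it lifts to the base of a family of
stable curves, and on the (dense) open stratum its value is the class of the curve glued from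
projective lines. -/
def IsGluing (c : Coord h m) (ξ : C(N h, Coarse L)) : Prop :=
  (∀ x, ∃ s : N h → Pt L, ContinuousAt s x ∧ ∀ᶠ y in nhds x, ξ y = Quot.mk _ (s y)) ∧
  ∃ (C : Fam L m) (st : C.IsStable), c.IsGlued C ∧
    ∀ (b : C.B) (x : N h), x.1 = cr h (fun y => pt b (c.c y)) → ξ x = cls C st b

/-- `z` is a cycle which represents the fundamental class of `N h` for the complex orientation: at
every point `p` of the open stratum it is homologous, relative to the complement of `p`, to a
positively oriented affine simplex `s` (in the coordinates `c`) with `p` in its interior. -/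
def IsFund (c : Coord h m) (z : Chain (m * 2 + 1) (N h)) : Prop :=
  bd _ z = 0 ∧ ∀ p ∈ c.base, ∃ (w : Fin m → ℂ) (A : Fin (m * 2) → Fin m → ℂ)
    (s : Simp (m * 2 + 1) (N h)) (b : Chain (m * 2 + 2) (N h)) (r : Chain (m * 2 + 1) (N h)),
    0 < (Matrix.of fun i a : Fin (m * 2) =>
      if a.modNat = 0 then (A i a.divNat).re else (A i a.divNat).im).det ∧
    (∀ t, w + ∑ i, t.1 i.succ • A i ∈ c.base ∧
      (s t).1 = cr h fun y => pt (w + ∑ i, t.1 i.succ • A i) (c.c y)) ∧
    (∃ t : stdSimplex ℝ (Fin (m * 2 + 1)), (∀ i, 0 < t.1 i) ∧ w + ∑ i, t.1 i.succ • A i = p) ∧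
    (∀ σ ∈ r.support, ∀ t, (σ t).1 ≠ cr h fun y => pt p (c.c y)) ∧
    z = Finsupp.single s 1 + bd _ b + r

/-- The element `∑ a i [h i]` of the strata algebra is zero in the rational homology of the moduli
space of stable curves: the gluing maps `ξ i` exist and are unique, and the combination of the
images of the fundamental cycles under the gluing maps is the boundary of a singular chain. -/
def VanishesH {ι : Type} [Fintype ι] (m : ℕ) (a : ι → ℚ) (h : ι → (E × Bool) ⊕ L → V) : Prop :=
  ∃ (c : ∀ i, Coord (h i) m) (ξ : ∀ i, C(N (h i), Coarse L))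
    (z : ∀ i, Chain (m * 2 + 1) (N (h i))) (B : Chain (m * 2 + 2) (Coarse L)),
    (∀ i, (∀ ξ', IsGluing (c i) ξ' ↔ ξ' = ξ i) ∧ IsFund (c i) (z i)) ∧
      ∑ i, a i • push (ξ i) (z i) = bd _ B

end Vale.Agent.P273SZ

end
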