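import Vale.Agent.P273SZ.Pre
import Vale.Agent.P273SN.Ehat

/-!
# P273S: the relation in singular homology
-/

namespace Vale.Agent.P273SZ

/-- **The element is zero in the rational singular homology of the moduli space.** -/
theorem vanishes : VanishesH 8 P273.H503.xa P273.H503.xh :=
  vanishes_of (P273SN.nb pr_all ovl_all)

end Vale.Agent.P273SZ
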