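import Vale.Agent.P273SZ.Defs
import Vale.Agent.P273SD.Fh

/-!
# P273S: the classes of fibres in the coarse moduli space
-/

noncomputable section

namespace Vale.Agent.P273SZ

open Set Filter Topology Vale.Agent.P273 H183 P273SD

variable {L : Type} {m m' : ℕ}

theorem iso_equiv : Equivalence fun x y : Pt L => ∃ φ, FIso x.1.2.1 x.2 y.1.2.1 y.2 φ where
  refl _ := ⟨id, FIso.refl _ _⟩
  symm := by
    rintro x y ⟨φ, h⟩
    obtain ⟨ψ, h1, -⟩ := h.symm x.1.2.2 y.1.2.2 x.2.2 y.2.2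
    exact ⟨ψ, h1⟩
  trans := by
    rintro x y z ⟨φ, h⟩ ⟨ψ, h'⟩
    exact ⟨_, h.trans h'⟩

theorem cls_eq_iff {C : Fam L m} {C' : Fam L m'} (st : C.IsStable) (st' : C'.IsStable) (b : C.B)
    (b' : C'.B) : cls C st b = cls C' st' b' ↔ ∃ φ, FIso C b C' b' φ := by
  rw [cls, cls, Quot.eq]
  exact iso_equiv.eqvGen_iff

theorem continuous_cls (C : Fam L m) (st : C.IsStable) : Continuous (cls C st) :=
  continuous_quot_mk.comp
    (continuous_sigmaMk (σ := fun x : Σ m, {C : Fam L m // C.IsStable} => x.2.1.B)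
      (i := ⟨m, C, st⟩))

open Classical in
/-- The class of a fibre as a function of all data. -/
def clsT (z₀ : Coarse L) (m : ℕ) (C : Fam L m) (b : Fin m → ℂ) : Coarse L :=
  if h : C.IsStable ∧ b ∈ C.B then cls C h.1 ⟨b, h.2⟩ else z₀

theorem clsT_eq (z₀ : Coarse L) {C : Fam L m} (st : C.IsStable) {b : Fin m → ℂ} (hb : b ∈ C.B) :
    clsT z₀ m C b = cls C st ⟨b, hb⟩ := dif_pos ⟨st, hb⟩

theorem clsT_cont (z₀ : Coarse L) {C : Fam L m} (st : C.IsStable) :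
    ContinuousOn (clsT z₀ m C) C.B := by
  rw [continuousOn_iff_continuous_domRestrict]
  refine (continuous_cls C st).congr fun b => ?_
  exact (clsT_eq z₀ st b.2).symm

theorem clsT_mor (z₀ : Coarse L) {C : Fam L m} {C' : Fam L m'} {φ : (Fin m' → ℂ) → Fin m → ℂ}
    {Φ : C'.X → C.X} (st : C.IsStable) (st' : C'.IsStable) (h : IsMor C' C φ Φ)
    {b : Fin m' → ℂ} (hb : b ∈ C'.B) : clsT z₀ m' C' b = clsT z₀ m C (φ b) := by
  rw [clsT_eq z₀ st' hb, clsT_eq z₀ st (h.1 b hb).1, cls_eq_iff]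
  exact ⟨Φ, FIso.of_isMor h hb⟩

theorem clsT_seq [Finite L] (hP : Proper) (z₀ : Coarse L) {C : Fam L m} {C' : Fam L m'}
    {x : ℕ → Fin m → ℂ} {x' : ℕ → Fin m' → ℂ} {b : Fin m → ℂ} {b' : Fin m' → ℂ}
    (st : C.IsStable) (st' : C'.IsStable) (hb : b ∈ C.B) (hb' : b' ∈ C'.B) (hx : ∀ n, x n ∈ C.B)
    (hx' : ∀ n, x' n ∈ C'.B) (ht : Tendsto x atTop (𝓝 b)) (ht' : Tendsto x' atTop (𝓝 b'))
    (h : ∀ n, clsT z₀ m C (x n) = clsT z₀ m' C' (x' n)) :
    clsT z₀ m C b = clsT z₀ m' C' b' := by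
  have h1 : ∀ n, ∃ φ, FIso C (x n) C' (x' n) φ := fun n => by
    have h2 := h n
    rwa [clsT_eq z₀ st (hx n), clsT_eq z₀ st' (hx' n), cls_eq_iff] at h2
  choose φ hφ using h1
  obtain ⟨φ₀, h2, -⟩ := hP L m m' C C' st st' ℕ (Ultrafilter.of atTop) x x' φ b hb b' hb'
    (ht.mono_left (Ultrafilter.of_le _)) (ht'.mono_left (Ultrafilter.of_le _))
    (Eventually.of_forall hφ)
  rw [clsT_eq z₀ st hb, clsT_eq z₀ st' hb', cls_eq_iff]
  exact ⟨φ₀, h2⟩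

end Vale.Agent.P273SZ

end
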