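import Vale.Agent.P273SZ.Defs
import Vale.Agent.P273SA.Defs

/-!
# P273S: from real chains to rational chains; a chain killed by all cocycles is a boundary
-/

noncomputable section

namespace Vale.Agent.P273SZ

open Set

universe u

theorem exists_pr : ∃ p : ℝ →ₗ[ℚ] ℚ, p 1 = 1 := by
  obtain ⟨f, hf⟩ := Module.Projective.exists_dual_ne_zero ℚ (one_ne_zero (α := ℝ))
  exact ⟨(f 1)⁻¹ • f, by simp [hf]⟩

/-- A `ℚ`-linear projection of `ℝ` onto `ℚ`. -/
def pr : ℝ →ₗ[ℚ] ℚ := exists_pr.choose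

theorem pr_one : pr 1 = 1 := exists_pr.choose_spec

theorem pr_mul (q : ℚ) (r : ℝ) : pr ((q : ℝ) * r) = q * pr r := by
  have : (q : ℝ) * r = q • r := by rw [Rat.smul_def]
  rw [this, map_smul, smul_eq_mul]

/-- The rational chain of a real chain. -/
def toQ {S : Type} : (S →₀ ℝ) →+ (S →₀ ℚ) := Finsupp.mapRange.addMonoidHom pr.toAddMonoidHom

theorem toQ_single {S : Type} (s : S) (r : ℝ) :
    toQ (Finsupp.single s r) = Finsupp.single s (pr r) := by
  simp [toQ]

theorem toQ_support {S : Type} (z : S →₀ ℝ) : (toQ z).support ⊆ z.support :=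
  Finsupp.support_mapRange (hf := map_zero pr.toAddMonoidHom)

theorem bd_single {Z : Type u} [TopologicalSpace Z] {k : ℕ} (σ : Simp (k + 1) Z) (q : ℚ) :
    bd k (Finsupp.single σ q) =
      ∑ i : Fin (k + 1), Finsupp.single (σ.comp (face k i)) ((-1 : ℚ) ^ (i : ℕ) * q) := by
  rw [bd, Finsupp.linearCombination_single, Finset.smul_sum]
  refine Finset.sum_congr rfl fun i _ => ?_
  rw [Finsupp.smul_single, smul_eq_mul, mul_comm]

theorem toQ_bd {X : Type} [TopologicalSpace X] {k : ℕ} (z : P223.H.Chain (k + 1) X) :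
    toQ (P223.H.bd k z) = bd k (toQ z) := by
  induction z using Finsupp.induction_linear with
  | zero => simp
  | add a b ha hb => simp only [map_add, ha, hb]
  | single σ r =>
    rw [toQ_single, bd_single, P223.H.bd, Finsupp.linearCombination_single, Finset.smul_sum,
      map_sum]
    refine Finset.sum_congr rfl fun i _ => ?_
    rw [Finsupp.smul_single, toQ_single, smul_eq_mul, mul_comm, ← pr_mul]
    congr 2
    push_cast
    rfl

theorem ev_toQ {X : Type} [TopologicalSpace X] {k : ℕ} {M : Type*} [AddCommGroup M] [Module ℚ M]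
    (φ : M →ₗ[ℚ] ℚ) (F : Chain k X →ₗ[ℚ] M) (z : P223.H.Chain k X) :
    pr (P273SA.ev (fun σ => ((φ (F (Finsupp.single σ 1)) : ℚ) : ℝ)) z) = φ (F (toQ z)) := by
  induction z using Finsupp.induction_linear with
  | zero => simp
  | add a b ha hb => simp only [map_add, ha, hb]
  | single σ r =>
    rw [toQ_single, P273SA.ev, Finsupp.linearCombination_single, smul_eq_mul, mul_comm, pr_mul]
    have : Finsupp.single σ (pr r) = pr r • Finsupp.single σ (1 : ℚ) := by
      rw [Finsupp.smul_single, smul_eq_mul, mul_one]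
    rw [this, map_smul, map_smul, smul_eq_mul, mul_comm]

/-- A real singular cocycle on a space of any universe. -/
def Cocy {Z : Type u} [TopologicalSpace Z] {k : ℕ} (c : Simp k Z → ℝ) : Prop :=
  ∀ τ : Simp (k + 1) Z, ∑ i : Fin (k + 1), (-1 : ℝ) ^ (i : ℕ) * c (τ.comp (face k i)) = 0

theorem Cocy.pull {Z : Type u} [TopologicalSpace Z] {k : ℕ} {c : Simp k Z → ℝ} (hc : Cocy c)
    {X : Type} [TopologicalSpace X] (f : C(X, Z)) (τ : P223.H.Simp (k + 1) X) :
    P273SA.cob (fun σ => c (f.comp σ)) τ = 0 := hc (f.comp τ)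

/-- **A combination of images of chains which is killed by all cocycles is a boundary.** -/
theorem bdry {Z : Type u} [TopologicalSpace Z] {ι : Type} [Fintype ι] {k : ℕ} (a : ι → ℚ)
    {X : ι → Type} [∀ i, TopologicalSpace (X i)] (ξ : ∀ i, C(X i, Z))
    (z : ∀ i, P223.H.Chain k (X i))
    (H : ∀ c : Simp k Z → ℝ, Cocy c →
      ∑ i, (a i : ℝ) * P273SA.ev (fun σ => c ((ξ i).comp σ)) (z i) = 0) :
    ∃ B : Chain (k + 1) Z, ∑ i, a i • push (ξ i) (toQ (z i)) = bd k B := by
  by_contra hne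
  have hn : ∑ i, a i • push (ξ i) (toQ (z i)) ∉ LinearMap.range (bd (Z := Z) k) := by
    rintro ⟨B, hB⟩
    exact hne ⟨B, hB.symm⟩
  obtain ⟨φ, h1, h2⟩ := Submodule.exists_dual_map_eq_bot_of_notMem hn inferInstance
  have h3 : ∀ B, φ (bd k B) = 0 := fun B => by
    have : φ (bd k B) ∈ (LinearMap.range (bd (Z := Z) k)).map φ :=
      Submodule.mem_map_of_mem ⟨B, rfl⟩
    rwa [h2, Submodule.mem_bot] at this
  have hc : Cocy fun σ : Simp k Z => ((φ (Finsupp.single σ 1) : ℚ) : ℝ) := by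
    intro τ
    have h4 := h3 (Finsupp.single τ 1)
    rw [bd_single, map_sum] at h4
    have h5 : ∀ i : Fin (k + 1), φ (Finsupp.single (τ.comp (face k i)) ((-1 : ℚ) ^ (i : ℕ) * 1)) =
        (-1 : ℚ) ^ (i : ℕ) * φ (Finsupp.single (τ.comp (face k i)) 1) := fun i => by
      rw [← smul_eq_mul, ← Finsupp.smul_single, map_smul, smul_eq_mul]
    simp only [h5] at h4
    have h7 := congrArg (Rat.cast : ℚ → ℝ) h4
    push_cast at h7
    exact h7
  have h6 := congrArg pr (H _ hc)
  rw [map_zero, map_sum] at h6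
  apply h1
  rw [map_sum, ← h6]
  refine Finset.sum_congr rfl fun i _ => ?_
  rw [pr_mul, map_smul, smul_eq_mul, ← ev_toQ φ (push (ξ i)) (z i)]
  congr 4
  funext σ
  rw [push, Finsupp.lmapDomain_apply, Finsupp.mapDomain_single]

section Fund

open P273 H837 P273SA

variable {L V E : Type} {h : (E × Bool) ⊕ L → V} {m : ℕ}

theorem kap_comb (w : Fin (m * 2) → ℝ) (A : Matrix (Fin (m * 2)) (Fin (m * 2)) ℝ)
    (t : Fin (m * 2) → ℝ) :
    kap m (fun j => w j + ∑ i, t i * A i j) = kap m w + ∑ i, t i • kap m (A i) := by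
  funext j
  simp only [kap, Pi.add_apply, Finset.sum_apply, Pi.smul_apply, Complex.real_smul]
  push_cast
  simp only [mul_add, Finset.sum_add_distrib, add_mul, Finset.sum_mul, mul_assoc]
  ring

theorem kap_mat (A : Matrix (Fin (m * 2)) (Fin (m * 2)) ℝ) :
    (Matrix.of fun i a : Fin (m * 2) =>
      if a.modNat = 0 then (kap m (A i) a.divNat).re else (kap m (A i) a.divNat).im) = A := by
  ext i a
  have ha : finProdFinEquiv (a.divNat, a.modNat) = a := finProdFinEquiv.apply_symm_apply a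
  rw [Matrix.of_apply]
  rcases Fin.exists_fin_two.1 ⟨a.modNat, rfl⟩ with h1 | h1
  · rw [h1] at ha
    simp [kap, h1, ha]
  · rw [h1] at ha
    simp [kap, h1, ha]

/-- **The rational cycle of a real fundamental cycle.** -/
theorem isFund_toQ {c : Coord h m} {e₀ : OpenPartialHomeomorph (N h) (Cm m)}
    (ht : e₀.target = c.base) (hs : ∀ b ∈ c.base, (e₀.symm b).1 = cr h fun y => pt b (c.c y))
    {z : P223.H.Chain (m * 2 + 1) (N h)} (hz : P223.H.bd _ z = 0)
    (hl : ∀ p ∈ e₀.source, Loc e₀ p z) : IsFund c (toQ z) := by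
  refine ⟨by rw [← toQ_bd, hz, map_zero], fun p hp => ?_⟩
  have hp' : p ∈ e₀.target := ht ▸ hp
  obtain ⟨w, A, s, b, r, hA, h1, ⟨t₀, h2, h3⟩, h4, h5⟩ := hl _ (e₀.map_target hp')
  have h6 : ∀ t : stdSimplex ℝ (Fin (m * 2 + 1)),
      e₀ (s t) = kap m w + ∑ i, t.1 i.succ • kap m (A i) := fun t =>
    (h1 t).2.trans (kap_comb w A fun i => t.1 i.succ)
  refine ⟨kap m w, fun i => kap m (A i), s, toQ b, toQ r, by rw [kap_mat]; exact hA,
    fun t => ?_, ⟨t₀, h2, ?_⟩, fun σ hσ t h7 => ?_, ?_⟩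
  · have h7 : e₀ (s t) ∈ c.base := ht ▸ e₀.map_source (h1 t).1
    rw [← h6 t, ← hs _ h7, e₀.left_inv (h1 t).1]
    exact ⟨h7, rfl⟩
  · rw [← h6 t₀, h3, e₀.right_inv hp']
  · exact h4 σ (toQ_support r hσ) t (Subtype.ext (h7.trans (hs p hp).symm))
  · rw [h5, map_add, map_add, toQ_single, pr_one, toQ_bd]

end Fund

end Vale.Agent.P273SZ

end
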