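import Vale.Agent.P273SZ.Defs
import Vale.Agent.P273.H837.Indep

/-!
# P273S: cross ratios and Moebius maps; the classes of the fibres of two glued families
-/

noncomputable section

namespace Vale.Agent.P273SZ

open Set Filter Topology Vale.Agent.P273 H183 H837

universe u

theorem df_eq (a b : OnePoint ℂ) : df a b = br (lft a) (lft b) := by
  induction a using OnePoint.rec <;> induction b using OnePoint.rec <;> simp [df, br]

theorem exists_lft {u : ℂ × ℂ} (hu : u ≠ 0) :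
    ∃ l : ℂ, l ≠ 0 ∧ lft (H837.proj u) = (l * u.1, l * u.2) := by
  by_cases h : u.2 = 0
  · have h1 := fst_ne_zero hu h
    refine ⟨u.1⁻¹, inv_ne_zero h1, ?_⟩
    rw [proj_eq_infty.2 h, lft_infty, inv_mul_cancel₀ h1, h, mul_zero]
  · refine ⟨u.2⁻¹, inv_ne_zero h, ?_⟩
    rw [H837.proj, if_neg h, lft_coe, inv_mul_cancel₀ h, div_eq_inv_mul]

theorem exists_df_mob {M : Matrix (Fin 2) (Fin 2) ℂ} (hM : M.det ≠ 0) :
    ∃ l : OnePoint ℂ → ℂ, (∀ a, l a ≠ 0) ∧
      ∀ a b, df (mob M a) (mob M b) = l a * l b * M.det * df a b := by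
  choose l hl using fun a => exists_lft (act_ne hM (lft_ne a))
  refine ⟨l, fun a => (hl a).1, fun a b => ?_⟩
  rw [df_eq, df_eq, mob, mob, (hl a).2, (hl b).2, mul_assoc, ← br_act]
  simp only [br]
  ring

variable {Y Y' V V' : Type}

/-- The cross ratio is invariant under Moebius maps. -/
theorem cr_mob {h : Y → V} {h' : Y' → V'} {w : Y → OnePoint ℂ} {w' : Y' → OnePoint ℂ}
    {y : Quad h} {y' : Quad h'} {M : Matrix (Fin 2) (Fin 2) ℂ} (hM : M.det ≠ 0)
    (H : ∀ k, w' (y'.1 k) = mob M (w (y.1 k))) : cr h' w' y' = cr h w y := by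
  obtain ⟨l, h1, h2⟩ := exists_df_mob hM
  simp only [cr, H, h2]
  congr 1
  have h3 : l (w (y.1 0)) * l (w (y.1 1)) * l (w (y.1 2)) * l (w (y.1 3)) * M.det ^ 2 ≠ 0 :=
    mul_ne_zero (mul_ne_zero (mul_ne_zero (mul_ne_zero (h1 _) (h1 _)) (h1 _)) (h1 _))
      (pow_ne_zero _ hM)
  rw [← mul_div_mul_left (df (w (y.1 3)) (w (y.1 0)) * df (w (y.1 1)) (w (y.1 2))) _ h3]
  congr 1 <;> ring

variable {L E E' : Type} {m m' : ℕ} {h : (E × Bool) ⊕ L → V} {h' : (E' × Bool) ⊕ L → V'}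

/-- The quadruple of `h` which corresponds to a quadruple of `h'`. -/
def quadBack (i : GIso h h') (y' : Quad h') : Quad h :=
  ⟨fun k => i.symm.Q (y'.1 k), fun k l e => y'.2.1 (by
    have := congrArg i.Q e
    simpa only [i.Q_symm] using this), fun k => by
    rw [i.symm.h_Q, i.symm.h_Q, y'.2.2 k]⟩

theorem cr_cmap (i : GIso h h') (c : Coord h m) (c' : Coord h' m') {b : Fin m → ℂ}
    (hb : b ∈ c.base) (y' : Quad h') :
    cr h' (fun y => pt (c.cmap i c' b) (c'.c y)) y' =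
      cr h (fun y => pt b (c.c y)) (quadBack i y') := by
  refine cr_mob (Coord.det_cmat i c c' hb (h ((quadBack i y').1 0))) fun k => ?_
  have h1 := Coord.pt_cmap i c c' hb ((quadBack i y').1 k)
  rw [(quadBack i y').2.2 k] at h1
  rw [← h1]
  change _ = pt _ (c'.c (i.Q (i.symm.Q (y'.1 k))))
  rw [i.Q_symm]

/-- **The classes of the fibres of two glued families.** -/
theorem cls_cmap [Finite V] {Z : Type u} {cls : ∀ m, Fam L m → (Fin m → ℂ) → Z}
    (hm : ∀ m m' (C : Fam L m) (C' : Fam L m') φ Φ, C.IsStable → C'.IsStable → IsMor C' C φ Φ →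
      ∀ b ∈ C'.B, cls m' C' b = cls m C (φ b))
    (i : GIso h h') (c : Coord h m) (c' : Coord h' m') (hs : HasStrong c)
    {C : Fam L m} {C' : Fam L m'} (hCs : C.IsStable) (hC's : C'.IsStable) (hC : c.IsGlued C)
    (hC' : c'.IsGlued C') {b : Fin m → ℂ} (hb : b ∈ c.base) :
    cls m C b = cls m' C' (c.cmap i c' b) := by
  obtain ⟨T, gT, hT, hTB, hTn, hTh⟩ := hs
  have ho : IsOpen c.base := hTB ▸ hT.1
  obtain ⟨g, hg⟩ := H395.Norm.of_isGlued hC
  obtain ⟨g', hg'⟩ := H395.Norm.of_isGlued hC'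
  have hb' : b ∈ T.B := hTB.symm ▸ hb
  have hTn' : H395.Norm T T.B id h (fun y b => pt b (c.c y)) gT := hTB.symm ▸ hTn
  have hπ := H395.continuous_pi_of_isChart hT.2.2.2.2.1
  obtain ⟨Φ, h1, -⟩ := H395.exists_mor hT.1 hT.2.1 hT.2.2.1 hπ hTn'
    (hTB.symm ▸ hg : H395.Norm C T.B id h (fun y b => pt b (c.c y)) g) hTh
  obtain ⟨Φ', h2, -⟩ := H395.exists_mor hT.1 hT.2.1 hT.2.2.1 hπ hTn'
    (hTB.symm ▸ norm_cmap i c c' ho hg' : H395.Norm C' T.B (c.cmap i c') h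
      (fun y b => pt b (c.c y)) _) hTh
  rw [← hm _ _ _ _ _ _ hC's hT h2 b hb', hm _ _ _ _ _ _ hCs hT h1 b hb']
  rfl

end Vale.Agent.P273SZ

end
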