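import Vale.Agent.P273SN.CR
import Vale.Agent.P273SZ.IF
import Vale.Agent.P273SZ.Mob

/-!
# P273S: the chart of the open stratum and the homeomorphisms of isomorphic graphs
-/

noncomputable section

namespace Vale.Agent.P273SZ

open Set Filter Topology Vale.Agent.P273 H837 P273SN

variable {L V E V' E' : Type} {m : ℕ} {h : (E × Bool) ⊕ L → V} {h' : (E' × Bool) ⊕ L → V'}

theorem mob_T3 {a b c : OnePoint ℂ} (h1 : a ≠ b) (h2 : a ≠ c) (h3 : b ≠ c) :
    (T3 (lft a) (lft b) (lft c)).det ≠ 0 ∧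
    mob (T3 (lft a) (lft b) (lft c)) a = ((0 : ℂ) : OnePoint ℂ) ∧
    mob (T3 (lft a) (lft b) (lft c)) b = ((1 : ℂ) : OnePoint ℂ) ∧
    mob (T3 (lft a) (lft b) (lft c)) c = OnePoint.infty := by
  have k1 := br_lft_ne h2
  have k2 := br_lft_ne h3
  have k3 := br_lft_ne h1.symm
  refine ⟨det_T3 k2 k3 k1, ?_, ?_, ?_⟩
  · rw [mob, act_T3, proj_eq_coe]
    exact ⟨mul_ne_zero k1 k3, by simp [br_self]⟩
  · rw [mob, act_T3, proj_eq_coe]
    exact ⟨mul_ne_zero k2 k3, by simp [mul_comm]⟩
  · rw [mob, act_T3, proj_eq_infty]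
    simp [br_self]

theorem cst_ne (c : Coord h m) (v : V) {k l : Fin 3} (hkl : k ≠ l) : c.cst v k ≠ c.cst v l := by
  intro e
  have h1 := c.cst_c v k
  rw [e, c.cst_c] at h1
  exact hkl (Sum.inl.inj h1).symm

theorem crd_ne (c : Coord h m) (j : Fin m) (v : V) (k : Fin 3) : c.crd j ≠ c.cst v k := by
  intro e
  have h1 := c.crd_c j
  rw [e, c.cst_c] at h1
  exact absurd h1 (by simp)

/-- Every configuration is equivalent to a point of the base. -/
theorem conf_image (c : Coord h m) :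
    cr h '' Conf h = (fun b => cr h fun y => pt b (c.c y)) '' c.base := by
  refine Subset.antisymm ?_ ?_
  · rintro _ ⟨w, hw, rfl⟩
    have hne : ∀ v {k l : Fin 3}, k ≠ l → w (c.cst v k) ≠ w (c.cst v l) := fun v k l hkl e =>
      cst_ne c v hkl (hw _ _ (by rw [c.cst_h, c.cst_h]) e)
    let A : V → Matrix (Fin 2) (Fin 2) ℂ := fun v =>
      T3 (lft (w (c.cst v 0))) (lft (w (c.cst v 1))) (lft (w (c.cst v 2)))
    have hA := fun v => mob_T3 (hne v (k := 0) (l := 1) (by decide))
      (hne v (k := 0) (l := 2) (by decide)) (hne v (k := 1) (l := 2) (by decide))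
    let b : Fin m → ℂ := fun j => toC (mob (A (h (c.crd j))) (w (c.crd j)))
    have hb : ∀ y, pt b (c.c y) = mob (A (h y)) (w y) := by
      intro y
      rcases hy : c.c y with k | j
      · have h1 := c.eq_cst hy
        obtain ⟨-, k0, k1, k2⟩ := hA (h y)
        fin_cases k
        · rw [h1, c.cst_h]; exact k0.symm
        · rw [h1, c.cst_h]; exact k1.symm
        · rw [h1, c.cst_h]; exact k2.symm
      · rw [c.eq_crd hy]
        refine coe_toC fun e => ?_
        have h2 := mob_injective (hA _).1 (e.trans (hA _).2.2.2.symm)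
        exact crd_ne c j _ _ (hw _ _ (c.cst_h _ _).symm h2)
    obtain ⟨h1, h2⟩ := P273SN.cr_mob hw (fun v => (hA v).1) hb
    exact ⟨b, h1, h2⟩
  · rintro _ ⟨b, hb, rfl⟩
    exact ⟨_, hb, rfl⟩

/-- The quadruple of a coordinate. -/
def qd (c : Coord h m) (j : Fin m) : Quad h :=
  ⟨![c.cst (h (c.crd j)) 0, c.cst (h (c.crd j)) 1, c.cst (h (c.crd j)) 2, c.crd j], by
    intro k l e
    fin_cases k <;> fin_cases l <;>
      first
        | rfl
        | exact absurd e (cst_ne c _ (by decide))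
        | exact absurd e (crd_ne c j _ _)
        | exact absurd e.symm (crd_ne c j _ _), by
    intro k
    fin_cases k <;> simp [c.cst_h]⟩

theorem cr_qd (c : Coord h m) (j : Fin m) (b : Fin m → ℂ) :
    cr h (fun y => pt b (c.c y)) (qd c j) = (b j : ℂ) := by
  simp [cr, qd, c.cst_c, c.crd_c, pt, df]

theorem an_base (c : Coord h m) (ho : IsOpen c.base) {b : Fin m → ℂ} (hb : b ∈ c.base) :
    An (fun b => cr h fun y => pt b (c.c y)) b := by
  have key : ∀ b ∈ c.base, ∀ q : Quad h, cr h (fun y => pt b (c.c y)) q =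
      H837.proj (CR fun i => hpt b (c.c (q.1 i))) := fun b hb q =>
    cr_eq' hb q (fun i => hpt_ne _ _) (M := 1) (by simp) fun i => by rw [mob_one, proj_hpt]
  have h1 : An (fun b (q : Quad h) => H837.proj (CR fun i => hpt b (c.c (q.1 i)))) b := by
    refine an_proj (fun q => an_CR fun i => (hpt_analytic _ b).1.prod (hpt_analytic _ b).2)
      fun q => CR_ne (fun i => hpt_ne _ _) fun i j k hij _ _ e _ _ => ?_
    refine conf_ne hb q hij ?_
    rw [← proj_hpt, ← proj_hpt]
    exact (proj_eq_iff (hpt_ne _ _) (hpt_ne _ _)).2 e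
  refine h1.congr ?_
  filter_upwards [ho.mem_nhds hb] with x hx
  exact funext fun q => (key x hx q).symm

/-- **The chart of the open stratum.** -/
theorem exists_baseCh (c : Coord h m) (ho : IsOpen c.base) (hne : c.base.Nonempty) :
    ∃ e₀ ∈ atl (N h) m, BaseCh c e₀ := by
  have hN : N h = closure ((fun b => cr h fun y => pt b (c.c y)) '' c.base) := by
    rw [← conf_image]
    rfl
  obtain ⟨e, h1, h2, h3⟩ := exists_chart ho hne (fun b hb => an_base c ho hb) hN (qd c) id
    (fun b _ j => by rw [cr_qd]; exact OnePoint.coe_ne_infty _) (fun _ _ => analyticAt_id)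
    fun b _ => by simp only [cr_qd, toC_coe, id]
  refine ⟨e, h1, h2, h3, fun x => ?_⟩
  rw [closure_subtype]
  refine closure_mono ?_ (hN.subset x.2)
  rintro _ ⟨b, hb, rfl⟩
  exact ⟨e.symm b, e.map_target (h2 ▸ hb), h3 b hb⟩

/-- The bijection of the quadruples. -/
def quadEquiv (i : GIso h h') : Quad h ≃ Quad h' where
  toFun := quadBack i.symm
  invFun := quadBack i
  left_inv _ := Subtype.ext (funext fun _ => i.symm_Q _)
  right_inv _ := Subtype.ext (funext fun _ => i.Q_symm _)

theorem mem_N (i : GIso h h') {a : Quad h' → OnePoint ℂ} (ha : a ∈ N h') :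
    (fun q => a (quadBack i.symm q)) ∈ N h := by
  have hc : Continuous fun (a : Quad h' → OnePoint ℂ) (q : Quad h) => a (quadBack i.symm q) :=
    continuous_pi fun q => continuous_apply _
  refine map_mem_closure hc ha ?_
  rintro _ ⟨w, hw, rfl⟩
  refine ⟨fun y => w (i.Q y), fun y y' e1 e2 => ?_, rfl⟩
  have := hw _ _ (by rw [i.h_Q, i.h_Q, e1]) e2
  rw [← i.symm_Q y, this, i.symm_Q]

theorem mem_N_iff (i : GIso h h') (a : Quad h' → OnePoint ℂ) :
    a ∈ N h' ↔ (fun q => a (quadEquiv i q)) ∈ N h := by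
  refine ⟨mem_N i, fun ha => ?_⟩
  have h1 := mem_N i.symm ha
  have h2 : (fun q => a (quadEquiv i (quadBack i.symm.symm q))) = a :=
    funext fun q => congrArg a ((quadEquiv i).apply_symm_apply q)
  exact h2 ▸ h1

/-- **The homeomorphism of an isomorphism of graphs.** -/
theorem exists_iso (i : GIso h h') : ∃ s : N h ≃ₜ N h',
    (∀ (x : N h) (y : Quad h) (y' : Quad h'), (∀ k, y'.1 k = i.Q (y.1 k)) → (s x).1 y' = x.1 y) ∧
    (∀ e ∈ atl (N h) m, s.symm.toOpenPartialHomeomorph.trans e ∈ atl (N h') m) ∧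
    ∀ e ∈ atl (N h') m, s.toOpenPartialHomeomorph.trans e ∈ atl (N h) m := by
  refine ⟨(reix (quadEquiv i) (mem_N_iff i)).symm, fun x y y' hy => ?_, fun e he => ?_,
    fun e he => ?_⟩
  · refine congrArg x.1 (Subtype.ext (funext fun k => ?_))
    change i.symm.Q (y'.1 k) = _
    rw [hy, i.symm_Q]
  · rw [← Homeomorph.transOpenPartialHomeomorph_eq_trans]
    exact HolCh.reix (quadEquiv i) (mem_N_iff i) he
  · rw [← Homeomorph.transOpenPartialHomeomorph_eq_trans]
    exact HolCh.reix (quadEquiv i).symm (mem_N_iff i.symm) he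

end Vale.Agent.P273SZ

end
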