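import Vale.Agent.P273SZ.Top
import Vale.Agent.P273SH.All
import Vale.Agent.P273SW.UInv
import Vale.Agent.P273SR.Psi
import Vale.Agent.P273SA.All
import Vale.Agent.P273SD.Pro2
import Vale.Agent.P273SX.Out
import Vale.Agent.P273SC.Cell
import Vale.Agent.P273SO.Ovl

/-!
# P273S: all rows except the manifolds
-/

noncomputable section

namespace Vale.Agent.P273SZ

open Vale.Agent.P273

theorem uinv' : P273SW.UINV := P273SW.uinv P273SR.psi

theorem pr_all : P273SW.PR := P273SH.pr' uinv'

theorem ovl_all : P273SN.OVL := P273SO.ovl P273SW.egs pr_all (P273SH.pv' uinv')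

theorem vanishes_of (hB : NB) : VanishesH 8 H503.xa H503.xh :=
  top P273SD.proper P273SA.fund P273SA.dr_all P273SL.wlc (P273SH.wphi2' uinv')
    (P273SH.wext' uinv') P273SX.xic (P273SX.cf pr_all) hB
    fun X G hG hP => P273SC.cell_rel X G hG hP

end Vale.Agent.P273SZ

end
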