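import Vale.Agent.P273SZ.Top1
import Vale.Agent.P273SZ.Dual
import Vale.Agent.P273SZ.Cls

/-!
# P273S: the top of the proof
-/

noncomputable section

namespace Vale.Agent.P273SZ

open Set Filter Topology MeasureTheory Vale.Agent.P273
open H183 (Fam)
open H837 (Coord GIso pt)
open H93 (thE Gr)
open H95 (L Region Ext)
open H728 (Cell D0 sm coordE)
open P273SA (Cm CAtl Full SmC bas IntC Per Loc FUND DR SLC)
open P273SW (Amb WW eR NatMap WLC WEXT)

universe u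

/-- The index of a theta graph. -/
structure TJ where
  p : Fin 7
  q : Fin 7
  hp : p.1 ≤ q.1
  σ : Bool → Equiv.Perm (Fin 7)
  e : Bool → Bool

theorem TJ.hq (t : TJ) : t.q.1 ≤ 6 := Nat.le_of_lt_succ t.q.2

/-- The graph. -/
abbrev TJ.gr (t : TJ) : Gr := thE t.e t.p t.q t.σ

/-- The coordinates. -/
abbrev TJ.c (t : TJ) : Coord t.gr 8 := coordE t.e t.p t.q t.hp t.σ

/-- The index of the graph `xh i`. -/
def tj (i : H503.Ix) : TJ :=
  ⟨⟨(H503.tpq i.2.1).1, Nat.lt_succ_of_le ((H503.tpq_le _).1.trans (H503.tpq_le _).2)⟩,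
    ⟨(H503.tpq i.2.1).2, Nat.lt_succ_of_le (H503.tpq_le _).2⟩, (H503.tpq_le _).1, i.1,
    cond i.2.2 (fun b => b) (fun _ => true)⟩

theorem tj_gr (i : H503.Ix) : H503.xh i = (tj i).gr := by
  rw [H503.xh, H503.thx_eq]
  rfl

/-- Composition of isomorphisms of graphs. -/
def giTrans {h h' h'' : Gr} (i : GIso h h') (j : GIso h' h'') : GIso h h'' where
  v := i.v.trans j.v
  q := i.q.trans j.q
  edge e s := by
    simp only [Equiv.trans_apply]
    rw [i.edge, j.edge]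
  comm y := by
    rw [Equiv.trans_apply, ← i.comm, ← j.comm]
    cases y <;> rfl

/-- The identity. -/
def giRefl (h : Gr) : GIso h h := ⟨Equiv.refl _, Equiv.refl _, fun _ _ => rfl, fun y => by
  cases y <;> rfl⟩

theorem cell_tj (hL : CELL) (X : Ext) (g : TJ → ℝ)
    (hg : ∀ t, g t = ∑ c : Cell with c.Ok (sm t.e), ∫ ζ in D0.Om (sm t.e) c,
      H728.val X t.hp t.hq t.σ t.e c ζ)
    (hI : ∀ t t' : TJ, GIso t.gr t'.gr → g t = g t') :
    ∑ i : H503.Ix, (H503.xa i : ℝ) * g (tj i) = 0 := by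
  classical
  let G : Gr → ℝ := fun h => if H : ∃ t : TJ, Nonempty (GIso t.gr h) then g H.choose else 0
  have hG : ∀ (t : TJ) (h : Gr), GIso t.gr h → G h = g t := by
    intro t h i
    have H' : ∃ t : TJ, Nonempty (GIso t.gr h) := ⟨t, ⟨i⟩⟩
    have h1 : G h = g H'.choose := dif_pos H'
    rw [h1]
    exact hI _ _ (giTrans H'.choose_spec.some i.symm)
  have h0 : ∑ i : H503.Ix, (H503.xa i : ℝ) * g (tj i) =
      ∑ i : H503.Ix, (H503.xa i : ℝ) * G (H503.xh i) := by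
    refine Finset.sum_congr rfl fun i _ => ?_
    rw [hG (tj i) (H503.xh i) (by rw [tj_gr]; exact giRefl _)]
  rw [h0]
  refine hL X G ?_ fun p q hp hq σ e => ?_
  · intro u ρ h1 h h' h2
    have i : GIso h h' := GIso.mk' u ρ h1 h2
    by_cases H' : ∃ t : TJ, Nonempty (GIso t.gr h)
    · obtain ⟨t, ⟨j⟩⟩ := H'
      rw [hG t h j, hG t h' (giTrans j i)]
    · have H'' : ¬ ∃ t : TJ, Nonempty (GIso t.gr h') := fun ⟨t, ⟨j⟩⟩ =>
        H' ⟨t, ⟨giTrans j i.symm⟩⟩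
      have e1 : G h = 0 := dif_neg H'
      have e2 : G h' = 0 := dif_neg H''
      rw [e1, e2]
  · exact (hG ⟨⟨p, by omega⟩, ⟨q, by omega⟩, hp, σ, e⟩ _ (giRefl _)).trans (hg _)

theorem slc_of (h : WLC) : SLC WW := by
  intro x U hU
  obtain ⟨V, h1, h2⟩ := (h.contractible_basis x).mem_iff.1 hU
  exact ⟨V, h1.1, h2, h1.2⟩

theorem ev_push {X Y : Type} [TopologicalSpace X] [TopologicalSpace Y] {k : ℕ} (f : C(X, Y))
    (c : P223.H.Simp k Y → ℝ) (z : P223.H.Chain k X) :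
    P273SA.ev c (P273SA.push f k z) = P273SA.ev (fun σ => c (f.comp σ)) z := by
  rw [P273SA.ev, P273SA.ev, P273SA.push, Finsupp.lmapDomain_apply, Finsupp.linearCombination_mapDomain]
  rfl

/-- **The relation for every space with natural continuous maps from the bases.** -/
theorem top_rel {Z : Type u} [TopologicalSpace Z] {cls : ∀ m, Fam L m → (Fin m → ℂ) → Z}
    (hN : NatMap cls) (hF : FUND) (hD : DR) (hW : WLC) (hP : WPHI2.{u}) (hE : WEXT)
    (hX : XIC.{u}) (hC : CF) (hB : NB) (hL : CELL) :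
    ∃ (e₀ : ∀ t : TJ, OpenPartialHomeomorph (N t.gr) (Cm 8)) (C : TJ → Fam L 8)
      (ξ : ∀ t : TJ, C(N t.gr, Z)) (z : ∀ t : TJ, P223.H.Chain (8 * 2 + 1) (N t.gr)),
      (∀ t, BaseCh t.c (e₀ t) ∧ (C t).IsStable ∧ t.c.IsGlued (C t) ∧ Lifts cls (ξ t) ∧
        FirstCountableTopology (N t.gr) ∧ (∀ b ∈ t.c.base, ξ t ((e₀ t).symm b) = cls 8 (C t) b) ∧ P223.H.bd _ (z t) = 0 ∧
        ∀ p ∈ (e₀ t).source, Loc (e₀ t) p (z t)) ∧
      ∀ c : Simp (8 * 2 + 1) Z → ℝ, Cocy c → ∑ i : H503.Ix,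
        (H503.xa i : ℝ) * P273SA.ev (fun σ => c ((ξ (tj i)).comp σ)) (z (tj i)) = 0 := by
  obtain ⟨𝒜, hA, hH⟩ := hB
  obtain ⟨Φ, hΦ, hΦL⟩ := hP Z cls hN
  have hat : ∀ t : TJ, CAtl (𝒜 t.gr) := fun t => hA.atl t.p t.q t.hp t.σ t.e
  choose e₀ he₀ hfull hb using fun t : TJ => hA.base t.p t.q t.hp t.σ t.e
  choose C hCs hCg using fun t : TJ => H728.exists_C t.p t.q t.hp t.σ t.e
  choose f hfs hf using fun t : TJ => hH t.p t.q t.hp t.hq t.σ t.e
  choose z hz hloc hper using fun t : TJ =>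
    hF 8 (N t.gr) (𝒜 t.gr) (by norm_num) (hat t) ⟨e₀ t, he₀ t, hfull t⟩
  have hξ : ∀ t : TJ, ∀ b ∈ t.c.base, Φ (f t ((e₀ t).symm b)) = cls 8 (C t) b := fun t =>
    xi_base hN hX hΦ hΦL t.hp t.hq t.σ t.e (hCs t) (hCg t) (hb t) (hf t)
  have hξL : ∀ t : TJ, Lifts cls fun x => Φ (f t x) := fun t => hΦL.comp (f t).continuous
  refine ⟨e₀, C, fun t => Φ.comp (f t), z, fun t => ⟨hb t, hCs t, hCg t, hξL t,
    firstCount (hat t), hξ t, hz t, hloc t _ (he₀ t)⟩, fun c hc => ?_⟩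
  obtain ⟨U, om, hU, hWU, hom, hd, hint⟩ :=
    hD 8 Amb WW (slc_of hW) (fun σ => c (Φ.comp σ)) (hc.pull Φ)
  obtain ⟨X, hXH⟩ := hE U om hU hWU hom hd
  refine cell_tj hL X (fun t => P273SA.ev (fun σ => c ((Φ.comp (f t)).comp σ)) (z t))
    (fun t => ?_) fun t t' i => ?_
  · have h1 := (hint (N t.gr) (𝒜 t.gr) (e₀ t) (z t) (f t) (by norm_num) (hat t) (he₀ t) (hfull t)
      (hper t _ (he₀ t) (hfull t)) (hfs t)).2
    rw [ev_push, (hb t).target] at h1
    refine h1.trans (hC om X hXH t.p t.q t.hp t.hq t.σ t.e (fun y => (f t ((e₀ t).symm y) : Amb))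
      fun k hk ζ hζ => hf t k hk ζ hζ _ ((hb t).symm _ ?_))
    rw [base_eq]
    exact H728.TD.kap_mem hζ
  · obtain ⟨s, hs, hs1, hs2⟩ := hA.iso t.gr t'.gr i
    have := firstCount (hat t)
    have h1 := xi_iso hN i (Top2.noLoop_thE _ _ _ _) (hCs t) (hCs t') (hCg t) (hCg t') (hb t)
      (hb t') (hξL t) (hξL t') (hξ t) (hξ t') hs
    have hsm : SmC (𝒜 t.gr) fun x => (((f t').comp (s : C(N t.gr, N t'.gr)) x : WW) : Amb) := by
      intro e he
      have h2 := hfs t' _ (hs1 e he)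
      simpa using h2
    have h2 := (hint (N t.gr) (𝒜 t.gr) (e₀ t) (z t) ((f t').comp (s : C(N t.gr, N t'.gr)))
      (by norm_num) (hat t) (he₀ t) (hfull t) (hper t _ (he₀ t) (hfull t)) hsm).2
    have hfull' := full_iso s hs2 (hfull t)
    have h3 := (hint (N t'.gr) (𝒜 t'.gr) _ (z t') (f t') (by norm_num) (hat t') (hs1 _ (he₀ t))
      hfull' (hper t' _ (hs1 _ (he₀ t)) hfull') (hfs t')).2
    rw [ev_push] at h2 h3
    have h4 : Φ.comp (f t) = Φ.comp ((f t').comp (s : C(N t.gr, N t'.gr))) :=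
      ContinuousMap.ext fun x => congrFun h1 x
    rw [h4]
    refine h2.trans (Eq.trans ?_ h3.symm)
    have h5 : (s.symm.toOpenPartialHomeomorph.trans (e₀ t)).target = (e₀ t).target := by simp
    rw [h5]
    rfl

theorem natMap (hP : P273SD.Proper) (z₀ : Coarse L) : NatMap (clsT z₀) where
  cont _ _ st := clsT_cont z₀ st
  mor _ _ _ _ _ _ st st' h _ hb := clsT_mor z₀ st st' h hb
  seq _ _ _ _ _ _ _ _ st st' hb hb' hx hx' ht ht' h := clsT_seq hP z₀ st st' hb hb' hx hx' ht ht' h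

theorem nonempty_coarse : Nonempty (Coarse L) := by
  obtain ⟨C, h1, h2⟩ := H728.exists_C 0 0 le_rfl (fun _ => 1) fun _ => true
  obtain ⟨b, hb⟩ := H768.base_ne (coordE (fun _ => true) 0 0 le_rfl fun _ => 1)
  exact ⟨cls C h1 ⟨b, h2.1.symm ▸ hb⟩⟩

theorem lifts_iff (z₀ : Coarse L) {X : Type} [TopologicalSpace X] {ξ : X → Coarse L} :
    Lifts (clsT z₀) ξ ↔
      ∀ x, ∃ s : X → Pt L, ContinuousAt s x ∧ ∀ᶠ y in 𝓝 x, ξ y = Quot.mk _ (s y) := by
  classical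
  refine forall_congr' fun x => ⟨?_, ?_⟩
  · rintro ⟨m, C, lam, h1, h2, h3, h4⟩
    have h5 : ∀ᶠ y in 𝓝 x, lam y ∈ C.B := h2.eventually (h1.1.mem_nhds h3)
    let r : X → C.B := fun y => if h : lam y ∈ C.B then ⟨lam y, h⟩ else ⟨lam x, h3⟩
    have h6 : ∀ y (h : lam y ∈ C.B), r y = ⟨lam y, h⟩ := fun y h => dif_pos h
    refine ⟨fun y => ⟨⟨m, C, h1⟩, r y⟩, ?_, ?_⟩
    · refine (continuous_sigmaMk (σ := fun x : Σ m, {C : Fam L m // C.IsStable} => x.2.1.B)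
        (i := ⟨m, C, h1⟩)).continuousAt.comp ?_
      rw [IsInducing.subtypeVal.continuousAt_iff]
      refine h2.congr ?_
      filter_upwards [h5] with y hy
      simp only [Function.comp, h6 y hy]
    · filter_upwards [h4, h5] with y k1 k2
      rw [k1, clsT_eq z₀ h1 k2, h6 y k2]
      rfl
  · rintro ⟨s, h1, h2⟩
    rcases hs : s x with ⟨⟨m, C, st⟩, b⟩
    have ho := IsOpenEmbedding.sigmaMk
      (σ := fun x : Σ m, {C : Fam L m // C.IsStable} => x.2.1.B) (i := ⟨m, C, st⟩)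
    have : Nonempty C.B := ⟨b⟩
    let e := ho.toOpenPartialHomeomorph
    have ht : s x ∈ e.target := by
      rw [hs]
      exact e.map_source (x := b) (mem_univ _)
    refine ⟨m, C, fun y => (e.symm (s y)).1, st, continuous_subtype_val.continuousAt.comp
      (ContinuousAt.comp (g := e.symm) (e.continuousAt_symm ht) h1), (e.symm (s x)).2, ?_⟩
    filter_upwards [h2, h1.eventually (e.open_target.mem_nhds ht)] with y k1 k2
    rw [k1, clsT_eq z₀ st (e.symm (s y)).2]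
    exact congrArg (Quot.mk _) (e.right_inv k2).symm

/-- **The top.** -/
theorem top (hP : P273SD.Proper) (hF : FUND) (hD : DR) (hW : WLC) (hΦ : WPHI2.{1}) (hE : WEXT)
    (hX : XIC.{1}) (hC : CF) (hB : NB) (hL : CELL) : VanishesH 8 H503.xa H503.xh := by
  obtain ⟨z₀⟩ := nonempty_coarse
  obtain ⟨e₀, C, ξ, z, h1, h2⟩ := top_rel (natMap hP z₀) hF hD hW hΦ hE hX hC hB hL
  rw [show H503.xh = fun i => (tj i).gr from funext tj_gr]
  obtain ⟨B, hB⟩ := bdry H503.xa (fun i => ξ (tj i)) (fun i => z (tj i)) h2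
  refine ⟨fun i => (tj i).c, fun i => ξ (tj i), fun i => toQ (z (tj i)), B, fun i => ?_, hB⟩
  obtain ⟨k1, k2, k3, k7, k8, k4, k5, k6⟩ := h1 (tj i)
  refine ⟨fun ξ' => ⟨?_, ?_⟩, isFund_toQ k1.target k1.symm k5 k6⟩
  · rintro ⟨l1, C', st', l2, l3⟩
    have l4 : ∀ b ∈ (tj i).c.base, ξ' ((e₀ (tj i)).symm b) = clsT z₀ 8 C' b := fun b hb => by
      rw [clsT_eq z₀ st' (l2.1.symm ▸ hb)]
      exact l3 _ _ (k1.symm b hb)
    have l5 := xi_iso (natMap hP z₀) (giRefl _) (Top2.noLoop_thE _ _ _ _) st' k2 l2 k3 k1 k1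
      ((lifts_iff z₀).2 l1) k7 l4 k4 (s := Homeomorph.refl _) fun x y y' hy => by
        rw [show y' = y from Subtype.ext (funext fun k => (hy k).trans (by
          cases y.1 k <;> rfl))]
        rfl
    exact ContinuousMap.ext fun x => congrFun l5 x
  · rintro rfl
    refine ⟨(lifts_iff z₀).1 k7, C (tj i), k2, k3, fun b x hx => ?_⟩
    have hb : b.1 ∈ (tj i).c.base := k3.1 ▸ b.2
    rw [show x = (e₀ (tj i)).symm b from Subtype.ext (hx.trans (k1.symm _ hb).symm), k4 _ hb,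
      clsT_eq z₀ k2 b.2]

end Vale.Agent.P273SZ

end
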