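import Vale.Agent.P273SZ.IF
import Vale.Agent.P273SZ.Mob

/-!
# P273S: uniqueness of maps which are locally given by families; the gluing maps
-/

noncomputable section

namespace Vale.Agent.P273SZ

open Set Filter Topology MeasureTheory Vale.Agent.P273
open H183 (Fam)
open H837 (Coord GIso pt)
open H93 (thE Gr)
open H95 (L Region Ext)
open H728 (Cell D0 sm coordE)
open P273SA (Cm CAtl Full SmC bas)
open P273SW (Amb WW eR NatMap)

universe u

variable {Z : Type u} [TopologicalSpace Z] {cls : ∀ m, Fam L m → (Fin m → ℂ) → Z}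

omit [TopologicalSpace Z] in
theorem Lifts.comp {X Y : Type} [TopologicalSpace X] [TopologicalSpace Y] {ξ : X → Z}
    (h : Lifts cls ξ) {f : Y → X} (hf : Continuous f) : Lifts cls fun y => ξ (f y) := by
  intro y
  obtain ⟨m, C, lam, h1, h2, h3, h4⟩ := h (f y)
  exact ⟨m, C, fun y => lam (f y), h1, ContinuousAt.comp (g := lam) h2 hf.continuousAt, h3,
    hf.continuousAt.eventually h4⟩

/-- **Uniqueness.** -/
theorem lifts_eq (hN : NatMap cls) {X : Type} [TopologicalSpace X] [FirstCountableTopology X]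
    {ξ ξ' : X → Z} (h : Lifts cls ξ) (h' : Lifts cls ξ') {D : Set X} (hD : Dense D)
    (he : EqOn ξ ξ' D) : ξ = ξ' := by
  funext x
  obtain ⟨m, C, lam, h1, h2, h3, h4⟩ := h x
  obtain ⟨m', C', lam', h1', h2', h3', h4'⟩ := h' x
  obtain ⟨y, hy, ht⟩ := mem_closure_iff_seq_limit.1 (hD x)
  have h5 : ∀ᶠ n in atTop, (lam (y n) ∈ C.B ∧ lam' (y n) ∈ C'.B) ∧
      ξ (y n) = cls m C (lam (y n)) ∧ ξ' (y n) = cls m' C' (lam' (y n)) :=
    ht.eventually (((h2.eventually (h1.1.mem_nhds h3)).and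
      (h2'.eventually (h1'.1.mem_nhds h3'))).and (h4.and h4'))
  obtain ⟨n₀, h6⟩ := eventually_atTop.1 h5
  have h7 := fun n => h6 (n + n₀) (Nat.le_add_left _ _)
  have ht' := ht.comp (tendsto_add_atTop_nat n₀)
  rw [h4.self_of_nhds, h4'.self_of_nhds]
  refine hN.seq m m' C C' (fun n => lam (y (n + n₀))) (fun n => lam' (y (n + n₀))) _ _ h1 h1' h3
    h3' (fun n => (h7 n).1.1) (fun n => (h7 n).1.2) (h2.tendsto.comp ht') (h2'.tendsto.comp ht')
    fun n => ?_
  rw [← (h7 n).2.1, ← (h7 n).2.2]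
  exact he (hy _)

instance compactN {Y V : Type} (h : Y → V) : CompactSpace (N h) :=
  isCompact_iff_compactSpace.1 isClosed_closure.isCompact

theorem firstCount {X : Type} [TopologicalSpace X] {m : ℕ}
    {𝒜 : Set (OpenPartialHomeomorph X (Cm m))} (h : CAtl 𝒜) : FirstCountableTopology X := by
  refine ⟨fun x => ?_⟩
  obtain ⟨e, -, hx⟩ := h.cover x
  rw [← e.symm_map_nhds_eq hx]
  infer_instance

theorem base_eq (p q : Fin 7) (hp : p.1 ≤ q.1) (σ : Bool → Equiv.Perm (Fin 7))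
    (e : Bool → Bool) : (coordE e p q hp σ).base = H728.bs (sm e) := by
  rw [H728.base_coordE]
  ext b
  simp only [H728.baseE, H728.bs, sm, decide_eq_true_eq, mem_ofPred_eq]

/-- The value of the map on the whole open stratum. -/
theorem xi_base (hN : NatMap cls) (hX : XIC.{u}) {Φ : C(WW, Z)} (hΦ : PhiReg cls Φ)
    (hL : Lifts cls Φ) {p q : Fin 7} (hp : p.1 ≤ q.1) (hq : q.1 ≤ 6)
    (σ : Bool → Equiv.Perm (Fin 7)) (e : Bool → Bool) {C : Fam L 8} (hC : C.IsStable)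
    (hg : (coordE e p q hp σ).IsGlued C) {e₀ : OpenPartialHomeomorph (N (thE e p q σ)) (Cm 8)}
    (h0 : BaseCh (coordE e p q hp σ) e₀) {f : C(N (thE e p q σ), WW)}
    (hf : ∀ c : Cell, c.Ok (sm e) → ∀ ζ ∈ D0.Om (sm e) c, ∀ x : N (thE e p q σ),
      (x.1 = cr _ fun y => pt (D0.kap (sm e) c ζ) ((coordE e p q hp σ).c y)) →
      (f x : Amb) = eC hp hq σ e c ζ) :
    ∀ b ∈ (coordE e p q hp σ).base, Φ (f (e₀.symm b)) = cls 8 C b := by
  have ho : IsOpen C.B := hC.1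
  have hc : Continuous fun b : C.B => f (e₀.symm b) := by
    refine f.continuous.comp (e₀.continuousOn_symm.comp_continuous continuous_subtype_val ?_)
    intro b
    rw [h0.target, ← hg.1]
    exact b.2
  have h1 : Lifts cls fun b : C.B => Φ (f (e₀.symm b)) := hL.comp hc
  have h2 : Lifts cls fun b : C.B => cls 8 C b := fun b =>
    ⟨8, C, Subtype.val, hC, continuous_subtype_val.continuousAt, b.2,
      Eventually.of_forall fun _ => rfl⟩
  have h3 : Dense (H728.TD.Ex D0)ᶜ :=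
    Measure.dense_of_ae (μ := volume) (compl_mem_ae_iff.2 H728.TD.null_Ex)
  have h4 : Dense (Subtype.val ⁻¹' (H728.TD.Ex D0)ᶜ : Set C.B) :=
    h3.preimage ho.isOpenMap_subtype_val
  have h5 := lifts_eq hN h1 h2 h4 fun b hb => by
    have hb' : b.1 ∈ (coordE e p q hp σ).base := hg.1 ▸ b.2
    obtain ⟨c, hc, ζ, hζ, h6⟩ := H728.TD.cover (D := D0) (sm e) (base_eq p q hp σ e ▸ hb') hb
    have h7 := hf c hc ζ hζ (e₀.symm b) (by rw [h6]; exact h0.symm _ hb')
    have h8 : f (e₀.symm b) = ⟨eC hp hq σ e c ζ, h7 ▸ (f (e₀.symm b)).2⟩ := Subtype.ext h7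
    rw [h8, hX Z cls hN Φ hΦ p q hp hq σ e C hC hg c ζ hζ, h6]
  intro b hb
  exact congrFun h5 ⟨b, hg.1.symm ▸ hb⟩

/-- The gluing maps of isomorphic graphs. -/
theorem xi_iso (hN : NatMap cls) {h h' : Gr} (i : GIso h h') (hl : Top2.NoLoop h)
    {c : Coord h 8} {c' : Coord h' 8} {C C' : Fam L 8} (hC : C.IsStable) (hC' : C'.IsStable)
    (hg : c.IsGlued C) (hg' : c'.IsGlued C') {e₀ : OpenPartialHomeomorph (N h) (Cm 8)}
    {e₁ : OpenPartialHomeomorph (N h') (Cm 8)} (h0 : BaseCh c e₀) (h1 : BaseCh c' e₁)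
    [FirstCountableTopology (N h)] {ξ : N h → Z} {ξ' : N h' → Z} (hL : Lifts cls ξ)
    (hL' : Lifts cls ξ') (hξ : ∀ b ∈ c.base, ξ (e₀.symm b) = cls 8 C b)
    (hξ' : ∀ b ∈ c'.base, ξ' (e₁.symm b) = cls 8 C' b) {s : N h ≃ₜ N h'}
    (hs : ∀ (x : N h) (y : Quad h) (y' : Quad h'), (∀ k, y'.1 k = i.Q (y.1 k)) →
      (s x).1 y' = x.1 y) : ξ = fun x => ξ' (s x) := by
  refine lifts_eq hN hL (hL'.comp s.continuous) h0.dense fun x hx => ?_
  have hb : e₀ x ∈ c.base := h0.target ▸ e₀.map_source hx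
  have hb' := Coord.cmap_mem i c c' hb
  have h2 : s x = e₁.symm (c.cmap i c' (e₀ x)) := by
    refine Subtype.ext (funext fun y' => ?_)
    rw [hs x (quadBack i y') y' fun k => (i.Q_symm _).symm, h1.symm _ hb', cr_cmap i c c' hb,
      ← h0.symm _ hb, e₀.left_inv hx]
  rw [h2, hξ' _ hb', ← cls_cmap hN.mor i c c' (H837.hasStrong c hl hC hg) hC hC' hg hg' hb,
    ← hξ _ hb, e₀.left_inv hx]

/-- Transport of a chart of full measure. -/
theorem full_iso {X X' : Type} [TopologicalSpace X] [TopologicalSpace X'] {m : ℕ}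
    {𝒜 : Set (OpenPartialHomeomorph X (Cm m))} {𝒜' : Set (OpenPartialHomeomorph X' (Cm m))}
    (s : X ≃ₜ X') (hs : ∀ e ∈ 𝒜', s.toOpenPartialHomeomorph.trans e ∈ 𝒜)
    {e₀ : OpenPartialHomeomorph X (Cm m)} (h : Full 𝒜 e₀) :
    Full 𝒜' (s.symm.toOpenPartialHomeomorph.trans e₀) := by
  intro e he
  refine measure_mono_null ?_ (h _ (hs e he))
  rintro _ ⟨x, ⟨h1, h2⟩, rfl⟩
  refine ⟨s.symm x, ⟨by simpa using h1, fun h3 => h2 (by simpa using h3)⟩, by simp⟩

end Vale.Agent.P273SZ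

end
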